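import Vale.Agent.P011.D4W.H7.Part
import Vale.Agent.P011N.D1.D4W.H7.Mix
import Vale.Agent.P011N.D1.D4Y.Defs
import Vale.Agent.P011N.D1.D4Y.H370.TripConjI
import Vale.Agent.P011N.D1.D4Y.H547.PartC
import Vale.Agent.P011N.D1.D4Y.H691.Na
import Vale.Agent.P011N.D1.D4Y.H691.OpenX
import Vale.Agent.P011N.D1.D4Y.H691.StabOf

/-!
Version for big subgroups of `P011.D4W.H7.Part`.
-/

open NumberField Topology Filter

set_option linter.unusedSectionVars false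

namespace Vale.Agent.P011.D4W.H7

open Vale.Agent.P011.Arith Vale.Agent.P011.MPQ Vale.Agent.P011.D4 Vale.Agent.P011.D4.Oct
  Vale.Agent.P011.E6 Vale.Agent.P011.D4X Vale.Agent.P011.D4X.H691 Vale.Agent.P011.D4Y

/-- The short elements lie in the finite residual, for all the models over `L / k`. -/
def ShortAllB (k L : Type) [Field k] [NumberField k] [Field L] [NumberField L] [Algebra k L] :
    Prop :=
  ∀ (E : Type) [Field E] [Algebra k E] [Algebra L E] [IsScalarTower k L E] [NeZero (2 : E)]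
    (ρ σ ι : E ≃ₐ[k] E) (α : E) (a b c : kˣ) (q : Lˣ), HyI ρ σ ι α a b c q →
    ∀ (x : SL1 (up L a) (q * up L b)) (g : OctL E a b c ≃ₗ[E] OctL E a b c),
      (∀ y : OctL E a b c, g y = shortFun ρ (psiL α q ((x : (Qt (up L a) (q * up L b))ˣ) :
        Qt (up L a) (q * up L b))) y) → g ∈ RsIB ρ σ ι α a b c q

variable {k L E : Type} [Field k] [NumberField k] [Field L] [NumberField L] [Field E]
  [Algebra k L] [Algebra k E] [Algebra L E]
  [IsScalarTower k L E] [NeZero (2 : E)] {ρ σ ι : E ≃ₐ[k] E} {α : E}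
  {a b c : kˣ} {q : Lˣ}

/-- The elements of class one in a centraliser. -/
theorem stab_NB (hS : ShortAllB k L) (H : HyI ρ σ ι α a b c q) {b' c' : kˣ} {j l : Oct a b c}
    (h : Trip a b' c' gi j l) {z : ATI ρ σ ι α a b c q} (hz : z ∈ stabI ρ σ ι α q h) {κ : Lˣ}
    (hκ : IsKapI ρ z.1 κ) (hcl : κ ∈ SqL k L) : IsNIB ρ σ ι α a b c q z :=
  stab_NI_ofB H h (fun _ _ _ h0 h1 _ hg => mix_mem_ofB (hyTripI H h)
    (hS E ρ σ ι α a b' c' q (hyTripI H h)) h0 h1 hg) hz hκ hcl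

/-- The elements of class one in the standard centraliser. -/
theorem stab0_NB (hS : ShortAllB k L) (H : HyI ρ σ ι α a b c q) {z : ATI ρ σ ι α a b c q}
    (hz : z ∈ stab0I ρ σ ι α a b c q) (hcl : kapI z ∈ SqL k L) : IsNIB ρ σ ι α a b c q z := by
  rw [← stabI_std (trip_std : Trip a b c (gi : Oct a b c) gj gl)] at hz
  exact stab_NB hS H trip_std hz (isKapI_kapI z) hcl

/-- **The parts.** -/
theorem partB (hS : ShortAllB k L) (H : HyI ρ σ ι α a b c q)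
    (hX : ∀ τ : k →+* ℝ, τ a < 0 → τ b < 0 ∧ τ c < 0)
    {b' c' : kˣ} {j l : Oct a b c} (h : Trip a b' c' gi j l) {D : k}
    (hD : GoodD a b q D) (hD' : GoodD a b' q D) (hns : ∀ e : E, e * e ≠ algebraMap k E D)
    {x y : L} (κ : Lˣ) (hκ : (κ : L) = x ^ 2 - algebraMap k L D * y ^ 2) :
    ∃ w w' : ATI ρ σ ι α a b c q, w ∈ stab0I ρ σ ι α a b c q ∧ w' ∈ stabI ρ σ ι α q h ∧
      IsKapI ρ w.1 κ ∧ IsKapI ρ w'.1 κ ∧ IsNIB ρ σ ι α a b c q (w * w'⁻¹) := by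
  have := H.numberField
  obtain ⟨hD0, ⟨w0, hw0, hw0'⟩, hwq, ⟨w1, hw1, hw1'⟩, hsgn⟩ := hD
  obtain ⟨-, ⟨w2, hw2, hw2'⟩, -, -, -⟩ := hD'
  have hns' : ∀ r : k, D ≠ a * r ^ 2 := by
    rintro r rfl
    apply hns (α * algebraMap k E r)
    rw [map_mul, map_pow, ← H.α2]
    ring
  obtain ⟨E1, O, _, _, _, _, _, _, _, _, _, _, _, _, _, _, _, _, ρ1, σ1, ι1, α1, ρ', σ', τ', ι',
    a1, b1, c1, q1, u, φ, X⟩ := exists_kcxI H hD0 hsgn hns hw0 hw0' hw1 hw1' hwq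
  -- the singular elements near the standard one
  have h1 := Part.near X.H1
  have h2 : ∀ᶠ v in nh {W : E1 →+* ℂ | W.comp (algebraMap k E1) ∈ Part.Sk k a}
      (ep α1 * gl : OctL E1 a1 b1 c1), Pt ρ1 v → (∃ μ : E1, Im ι1 v = μ • v) →
      ∃ y ∈ stabsI ρ1 σ1 ι1 α1 a1 b1 c1 q1, ∃ t : E1, t ≠ 0 ∧
          y.1 (tri ρ1 v (Jm ρ1 σ1 α1 q1 v)) = t • ep α1 := by
    rw [oup_gl] at h1
    exact h1.filter_mono (D4X.Part.nh_mono (Part.Bd_sub X.H1 (by rw [X.ha1]; exact hsgn)) _)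
  have hne : (Part.S k a).Nonempty := by
    obtain ⟨τ, hτ, -⟩ := H.hcp
    exact ⟨τ, hτ⟩
  obtain ⟨ε, hε, h3⟩ := X.sing_nearI H hns hw0 hw0' (Part.Sk_finite a)
    (by
      obtain ⟨τ, hτ⟩ := hne
      exact ⟨_, τ, hτ, rfl⟩) h2
  -- the triple near the standard one
  obtain ⟨f, c'', l'', h'', w'', hf, hw, hww, hnear⟩ := D4X.H370.exists_trip_near H.hdiv
    (Part.S k a) (fun τ hτ => ⟨hτ, hX τ hτ⟩) hne h hw0 hw0' hns' hw2 hw2' hε
  obtain ⟨v, hv1, hv2, hv3, hvt⟩ := h3 h'' hw hww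
    (by
      rintro τ ⟨τ', hτ', rfl⟩
      rw [D4X.H370.on_ofReal]
      exact (hnear τ' hτ').1.le)
    (by
      rintro τ ⟨τ', hτ', rfl⟩
      rw [D4X.H370.on_ofReal]
      exact (hnear τ' hτ').2.le)
  obtain ⟨y', hy', t, ht, hyt⟩ := hv1 hv2 ⟨-1, by rw [neg_one_smul]; exact hv3⟩
  obtain ⟨b2, c2, j1, l1, h4, hy1⟩ := X.z5_yI h'' hvt ht hyt
  -- the parts
  exact Part.moveB H h h'' (D4Y.H370.extE_mem_RsIB H hf) (D4X.H370.tQ_conj_mul hf h h'')
    (Part.core1B X (fun h z hz hk => stab_NB hS X.H1 h hz (κ := 1)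
        (by rw [← hk]; exact isKapI_kapI _) (Subgroup.one_mem _)) h'' hy' hy1 κ hκ)

/-- The centralisers are congruent to the centraliser of the standard involution, for the elements
whose multiplier has constant signs and is a norm at the primes of even local degree. -/
theorem stabV_le_ofB (H : HyI ρ σ ι α a b c q) {b' c' : kˣ} {j l : Oct a b c}
    (h : Trip a b' c' gi j l) {G : k → Prop}
    (hF4 : ∀ ν : Lˣ, (∀ w : L →+* ℝ, w (algebraMap k L a) < 0 → 0 < w (ν : L)) → ν ∈ NV k a q →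
      ∃ (D : Fin 3 → k) (x y : Fin 3 → L) (e : kˣ), (∀ i, G (D i)) ∧
        (ν : L) = algebraMap k L (e : k) * ∏ i, (x i ^ 2 - algebraMap k L (D i) * y i ^ 2))
    (hpart : ∀ {D : k}, G D → ∀ {x y : L} (κ : Lˣ),
      (κ : L) = x ^ 2 - algebraMap k L D * y ^ 2 →
      ∃ w w' : ATI ρ σ ι α a b c q, w ∈ stab0I ρ σ ι α a b c q ∧ w' ∈ stabI ρ σ ι α q h ∧
        IsKapI ρ w.1 κ ∧ IsKapI ρ w'.1 κ ∧ IsNIB ρ σ ι α a b c q (w * w'⁻¹))
    (hstabN : ∀ {z : ATI ρ σ ι α a b c q}, z ∈ stabI ρ σ ι α q h → ∀ {κ : Lˣ}, IsKapI ρ z.1 κ →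
      κ ∈ SqL k L → IsNIB ρ σ ι α a b c q z)
    {z : ATI ρ σ ι α a b c q} (hz : z ∈ stabI ρ σ ι α q h) (hP : kapI z ∈ PosC k L a)
    (hV : kapI z ∈ NV k a q) : z ∈ H.NAB ⊔ stab0I ρ σ ι α a b c q := by
  obtain ⟨e0, he0⟩ := exists_e hP
  obtain ⟨D, x, y, e, hD, hp⟩ := hF4 (up L e0 * kapI z) (fun w hw => by
    rw [Units.val_mul, map_mul]
    exact he0 w hw) (Subgroup.mul_mem _ (up_mem_NV e0) hV)
  have hne : ∀ i, x i ^ 2 - algebraMap k L (D i) * y i ^ 2 ≠ 0 := by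
    intro i h0
    have h1 : ∏ i, (x i ^ 2 - algebraMap k L (D i) * y i ^ 2) = 0 :=
      Finset.prod_eq_zero (Finset.mem_univ i) h0
    rw [h1, mul_zero] at hp
    exact (up L e0 * kapI z).ne_zero hp
  choose w w' hw hw' hwk hwk' hww using fun i =>
    hpart (hD i) (x := x i) (y := y i) (Units.mk0 _ (hne i)) rfl
  -- the product of the parts
  have key : ∀ i, w' i ∈ H.NAB ⊔ stab0I ρ σ ι α a b c q := by
    intro i
    have h1 : w i * (w' i)⁻¹ ∈ H.NAB := hww i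
    have h2 : w' i = (w i * (w' i)⁻¹)⁻¹ * w i := by group
    rw [h2]
    exact Subgroup.mul_mem _ (Subgroup.mem_sup_left (H.NAB.inv_mem h1))
      (Subgroup.mem_sup_right (hw i))
  let u : ATI ρ σ ι α a b c q := w' 0 * w' 1 * w' 2
  have hu : u ∈ stabI ρ σ ι α q h :=
    Subgroup.mul_mem _ (Subgroup.mul_mem _ (hw' 0) (hw' 1)) (hw' 2)
  have hu' : u ∈ H.NAB ⊔ stab0I ρ σ ι α a b c q :=
    Subgroup.mul_mem _ (Subgroup.mul_mem _ (key 0) (key 1)) (key 2)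
  have hku : kapI u = Units.mk0 _ (hne 0) * Units.mk0 _ (hne 1) * Units.mk0 _ (hne 2) := by
    rw [kapI_mul, kapI_mul, kapI_eq (hwk' 0), kapI_eq (hwk' 1), kapI_eq (hwk' 2)]
  have hκ : up L e0 * kapI z = up L e * kapI u := by
    apply Units.ext
    rw [hp, hku, Fin.prod_univ_three]
    rfl
  have hcl : kapI (z * u⁻¹) ∈ SqL k L := by
    rw [kapI_mul, kapI_inv]
    have h1 : kapI z * (kapI u)⁻¹ = (up L e0)⁻¹ * up L e := by
      rw [eq_inv_mul_iff_mul_eq, ← mul_assoc, hκ, mul_inv_cancel_right]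
    have h2 : ∀ t : kˣ, up L t ∈ SqL k L := fun t => by
      rw [mem_SqL]
      exact ⟨t, 1, by rw [one_pow, mul_one]⟩
    rw [h1]
    exact Subgroup.mul_mem _ (Subgroup.inv_mem _ (h2 e0)) (h2 e)
  have hN : z * u⁻¹ ∈ H.NAB :=
    hstabN (Subgroup.mul_mem _ hz (Subgroup.inv_mem _ hu)) (isKapI_kapI _) hcl
  have hzu : z = z * u⁻¹ * u := by group
  rw [hzu]
  exact Subgroup.mul_mem _ (Subgroup.mem_sup_left hN) hu'

/-- **The centralisers are congruent to the centraliser of the standard involution**, for the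
elements whose multiplier has constant signs and is a norm at the primes of even local degree. -/
theorem stabV_leB (hS : ShortAllB k L) (hF : F4All k L) (H : HyI ρ σ ι α a b c q)
    (hX : ∀ τ : k →+* ℝ, τ a < 0 → τ b < 0 ∧ τ c < 0) {b' c' : kˣ} {j l : Oct a b c}
    (h : Trip a b' c' gi j l) {z : ATI ρ σ ι α a b c q} (hz : z ∈ stabI ρ σ ι α q h)
    (hP : kapI z ∈ PosC k L a) (hV : kapI z ∈ NV k a q) :
    z ∈ H.NAB ⊔ stab0I ρ σ ι α a b c q :=
  stabV_le_ofB H h (G := fun D => GoodD a b q D ∧ GoodD a b' q D ∧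
      ∀ e : E, e * e ≠ algebraMap k E D)
    (fun ν hν hν' => hF E ρ σ ι α a b c q H h ν hν hν')
    (fun hG _ _ κ hκ => partB hS H hX h hG.1 hG.2.1 hG.2.2 κ hκ)
    (fun hz _ hκ hc => stab_NB hS H h hz hκ hc) hz hP hV

/-- **Openness at the bad real places**, from the congruence of the centralisers. -/
theorem open_top_ofB (hS : ShortAllB k L) (H : HyI ρ σ ι α a b c q)
    (hle : ∀ {b' c' : kˣ} {j l : Oct a b c} (h : Trip a b' c' gi j l) {z : ATI ρ σ ι α a b c q},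
      z ∈ stabI ρ σ ι α q h → kapI z ∈ PosC k L a → z ∈ H.NAB ⊔ stab0I ρ σ ι α a b c q) :
    ∃ ε : ℝ, 0 < ε ∧ ∀ g : OctL E a b c ≃ₗ[E] OctL E a b c, g ∈ GTI ρ σ ι α a b c q →
      (∀ w ∈ Bd ρ σ q, ∀ x, on w (g x - x) ≤ ε * on w x) → g ∈ RsIB ρ σ ι α a b c q := by
  have : NumberField E := H.numberField
  have : NeZero (2 : k) := ⟨two_ne_zero⟩
  have hv : Pt ρ (ep α * oup E (gl : Oct a b c) : OctL E a b c) := by
    rw [← D4X.H862.vl_eq]
    exact H408.pt_vlI H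
  have hvI : Im ι (ep α * oup E (gl : Oct a b c) : OctL E a b c) =
      (-1 : E) • (ep α * oup E (gl : Oct a b c)) := by
    rw [← D4X.H862.vl_eq, neg_one_smul]
    exact H408.Im_vl H.ια
  exact D4Y.open_ofB H (Set.toFinite _) hv hvI (D4Y.H691.near_gen H (D4Y.H691.pos_mem_PosC H))
    (fun z t h1 h2 => gen2PI H h1 h2) hle (fun hz hc => stab0_NB hS H hz hc)

end Vale.Agent.P011.D4W.H7
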