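import Vale.Agent.P011.D4W.H7.F4
import Vale.Agent.P011N.D1.D4W.H7.Part
import Vale.Agent.P011N.D1.D4Y.H691.Na

/-!
Version for big subgroups of `P011.D4W.H7.F4`.
-/

open NumberField IsDedekindDomain Topology Filter

namespace Vale.Agent.P011.D4W.H7

open Vale.Agent.P011.Arith Vale.Agent.P011.D4 Vale.Agent.P011.D4.Oct Vale.Agent.P011.D4X
  Vale.Agent.P011.D4Y Vale.Agent.P011.MPQ

/-- **The centralisers are congruent to the centraliser of the standard involution**, for the
elements whose multiplier has constant signs and is a norm at the primes of even local degree. -/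
theorem stabV_le'B {k L E : Type} [Field k] [NumberField k] [Field L] [NumberField L] [Field E]
    [Algebra k L] [Algebra k E] [Algebra L E]
    [IsScalarTower k L E] [NeZero (2 : E)] {ρ σ ι : E ≃ₐ[k] E} {α : E}
    {a b c : kˣ} {q : Lˣ} (hS : ShortAllB k L) (H : HyI ρ σ ι α a b c q)
    (hX : ∀ τ : k →+* ℝ, τ a < 0 → τ b < 0 ∧ τ c < 0) {b' c' : kˣ} {j l : Oct a b c}
    (h : Trip a b' c' gi j l) {z : ATI ρ σ ι α a b c q} (hz : z ∈ stabI ρ σ ι α q h)
    (hP : kapI z ∈ D4X.H691.PosC k L a) (hV : kapI z ∈ NV k a q) :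
    z ∈ H.NAB ⊔ stab0I ρ σ ι α a b c q :=
  stabV_leB hS f4All H hX h hz hP hV

end Vale.Agent.P011.D4W.H7
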