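import Vale.Agent.P011.D4W.H7.LeDef
import Vale.Agent.P011N.D1.D4Y.H691.Na

/-!
Version for big subgroups of `P011.D4W.H7.LeDef`.
-/

open Module NumberField

namespace Vale.Agent.P011.D4W.H7

open Vale.Agent.P011.MPQ Vale.Agent.P011.D4 Vale.Agent.P011.D4.Oct

/-- The centralisers are congruent to the centraliser of the standard involution, for the elements
whose multiplier has constant signs. -/
def LeAllB (k L : Type) [Field k] [NumberField k] [Field L] [NumberField L] [Algebra k L] :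
    Prop :=
  ∀ (E : Type) [Field E] [Algebra k E] [Algebra L E] [IsScalarTower k L E] [NeZero (2 : E)]
    (ρ σ ι : E ≃ₐ[k] E) (α : E) (a b c : kˣ) (q : Lˣ) (H : D4Y.HyI ρ σ ι α a b c q),
    (∀ τ : k →+* ℝ, τ a < 0 → τ b < 0 ∧ τ c < 0) →
    ∀ {b' c' : kˣ} {j l : Oct a b c} (h : Trip a b' c' gi j l)
      {z : D4Y.ATI ρ σ ι α a b c q}, z ∈ D4Y.stabI ρ σ ι α q h →
      D4Y.kapI z ∈ D4X.H691.PosC k L a → z ∈ H.NAB ⊔ D4Y.stab0I ρ σ ι α a b c q

end Vale.Agent.P011.D4W.H7
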