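import Vale.Agent.P011.D4W.H7.Swap
import Vale.Agent.P011N.D1.D4W.H7.LeDef
import Vale.Agent.P011N.D1.D4Y.Defs
import Vale.Agent.P011N.D1.D4Y.H370.TripConjI
import Vale.Agent.P011N.D1.D4Y.H691.Na
import Vale.Agent.P011N.D1.D4Y.H691.Tr

/-!
Version for big subgroups of `P011.D4W.H7.Swap`.
-/

open Module NumberField

set_option linter.unusedSectionVars false

namespace Vale.Agent.P011.D4W.H7

open Vale.Agent.P011.Arith Vale.Agent.P011.MPQ Vale.Agent.P011.D4 Vale.Agent.P011.D4.Oct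
  Vale.Agent.P011.D4.Em Vale.Agent.P011.E6 Vale.Agent.P011.D4X Vale.Agent.P011.D4X.H691
  Vale.Agent.P011.D4Y

open Vale.Agent.P011.D4.B.FI (fixI mem_fixI)

section move

variable {k L E : Type} [Field k] [NumberField k] [Field L] [NumberField L] [Field E]
  [Algebra k L] [Algebra k E] [Algebra L E]
  [IsScalarTower k L E] [NeZero (2 : E)] {ρ σ ι : E ≃ₐ[k] E} {α : E}
  {a b c : kˣ} {q : Lˣ}

/-- The congruence is transported along an element of the finite residual. -/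
theorem le_moveB (H : HyI ρ σ ι α a b c q) {b' c' b'' c'' : kˣ} {j l j'' l'' : Oct a b c}
    (h : Trip a b' c' gi j l)
    (h'' : Trip a b'' c'' gi j'' l'') {n : OctL E a b c ≃ₗ[E] OctL E a b c}
    (hn : n ∈ RsIB ρ σ ι α a b c q) (hc : n * tQ E h * n⁻¹ = tQ E h'')
    (hle : ∀ {z : ATI ρ σ ι α a b c q}, z ∈ stabI ρ σ ι α q h'' → kapI z ∈ PosC k L a →
      z ∈ H.NAB ⊔ stab0I ρ σ ι α a b c q)
    {z : ATI ρ σ ι α a b c q} (hz : z ∈ stabI ρ σ ι α q h) (hP : kapI z ∈ PosC k L a) :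
    z ∈ H.NAB ⊔ stab0I ρ σ ι α a b c q := by
  obtain ⟨nA, rfl⟩ : ∃ nA : ATI ρ σ ι α a b c q, nA.1 = n :=
    ⟨⟨n, GTI_le_ATI (RsI_leB hn)⟩, rfl⟩
  have hnN : nA ∈ H.NAB := ⟨1, nA.1, hn, fun x => by
    rw [Units.val_one, map_one, map_one, one_smul]⟩
  have hkn : kapI nA = 1 := kapI_of_GTI (RsI_leB hn)
  have h1 : nA * z * nA⁻¹ ∈ H.NAB ⊔ stab0I ρ σ ι α a b c q := by
    apply hle
    · change nA.1 * z.1 * nA.1⁻¹ * tQ E h'' = tQ E h'' * (nA.1 * z.1 * nA.1⁻¹)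
      have h1 : z.1 * tQ E h = tQ E h * z.1 := hz
      rw [← hc]
      calc nA.1 * z.1 * nA.1⁻¹ * (nA.1 * tQ E h * nA.1⁻¹)
          = nA.1 * (z.1 * tQ E h) * nA.1⁻¹ := by group
        _ = nA.1 * (tQ E h * z.1) * nA.1⁻¹ := by rw [h1]
        _ = nA.1 * tQ E h * nA.1⁻¹ * (nA.1 * z.1 * nA.1⁻¹) := by group
    · rw [kapI_mul, kapI_mul, kapI_inv, hkn, inv_one, one_mul, mul_one]
      exact hP
  have h2 : z = nA⁻¹ * (nA * z * nA⁻¹) * nA := by group
  rw [h2]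
  exact Subgroup.mul_mem _ (Subgroup.mul_mem _ (Subgroup.mem_sup_left (H.NAB.inv_mem hnN)) h1)
    (Subgroup.mem_sup_left hnN)

/-- The congruence for the frame `(i, l, j)`. -/
def LeSwapB (k L : Type) [Field k] [NumberField k] [Field L] [NumberField L] [Algebra k L] :
    Prop :=
  ∀ (E : Type) [Field E] [Algebra k E] [Algebra L E] [IsScalarTower k L E] [NeZero (2 : E)]
    (ρ σ ι : E ≃ₐ[k] E) (α : E) (a b c : kˣ) (q : Lˣ) (H : HyI ρ σ ι α a b c q),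
    (∀ τ : k →+* ℝ, τ a < 0 → τ b < 0 ∧ τ c < 0) →
    ∀ {z : ATI ρ σ ι α a b c q},
      z ∈ stabI ρ σ ι α q (trip_swap : Trip a c b (gi : Oct a b c) gl gj) →
      kapI z ∈ PosC k L a → z ∈ H.NAB ⊔ stab0I ρ σ ι α a b c q

/-- **The reduction to the frame `(i, l, j)`.** -/
theorem le_of_swapB (hsw : LeSwapB k L) : LeAllB k L := by
  intro E _ _ _ _ _ ρ σ ι α a b c q H hX b' c' j l h z hz hP
  have h2k : NeZero (2 : k) := ⟨two_ne_zero⟩
  have hneg : ∀ τ : k →+* ℝ, τ a < 0 → τ b' < 0 := fun τ hτ => by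
    obtain ⟨h1, h2⟩ := hX τ hτ
    exact ((DefAt.of_neg (τ := τ) (a := a) (b := b) (c := c) hτ h1 h2).trip h).neg.2.1
  obtain ⟨u, hu⟩ := exists_nrd (a := a) (b := b) (b' / c) (fun φ h1 _ => by
    rw [Units.val_div_eq_div_val, map_div₀]
    exact div_pos_of_neg_of_neg (hneg φ h1) (hX φ h1).2)
  have hb : (b' : k) = c * nrd u := by
    rw [hu, Units.val_div_eq_div_val]
    have := c.ne_zero
    field_simp
  have t1 : Trip a b' b (gi : Oct a b c) ⟨0, u⟩ gj := H24.trip_u hb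
  have t2 : Trip a b b' (gi : Oct a b c) gj ⟨0, u⟩ := trip_ul hb
  -- the automorphism
  obtain ⟨n, hn, -⟩ := D4X.H369.exists_n H.hdiv h.sj t1.sj h.ij t1.ij (by
    rw [B.norm_of_sq t1.sj t1.jj, B.norm_of_sq h.sj h.jj])
  have hf : n.1.1 gi = gi := mem_fixI.1 n.2
  have t1' : Trip a b' b (gi : Oct a b c) (n.1.1 j) gj := by rw [hn]; exact t1
  have hc := D4X.H370.tQ_conj_mul (E := E) hf h t1'
  have hc' : extE E n.1.1 * tQ E h * (extE E n.1.1)⁻¹ = tQ E t1 := by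
    rw [hc]
    congr 1
  refine le_moveB H h t1 (D4Y.H370.extE_mem_RsIB H hf) hc' ?_ hz hP
  -- the change of model
  intro z hz hP
  have H' : HyI ρ σ ι α a b b' q := hyTripI H t2
  obtain ⟨z0, hz0, rfl⟩ := exists_of_mem_stabI t1 hz
  rw [cjAI_comp t2 (trip_swap : Trip a b' b (gi : Oct a b b') gl gj) t1
    (fun x => comp_swap hb x) z0]
  rw [kapI_cjAI] at hP
  have h1 := hsw E ρ σ ι α a b b' q H' (fun τ hτ => ⟨(hX τ hτ).1, hneg τ hτ⟩)
    (z := cjAI ρ σ ι α q (trip_swap : Trip a b' b (gi : Oct a b b') gl gj) z0)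
    ((cjAI_mem_stabI _).2 hz0) (by rw [kapI_cjAI]; exact hP)
  have key : H'.NAB ⊔ stab0I ρ σ ι α a b b' q ≤
      (H.NAB ⊔ stab0I ρ σ ι α a b c q).comap
        (cjAI ρ σ ι α q t2 : ATI ρ σ ι α a b b' q →* ATI ρ σ ι α a b c q) := by
    refine sup_le (fun y hy => ?_) (fun y hy => ?_)
    · exact Subgroup.mem_sup_left (cjAI_isNIB t2 hy)
    · refine Subgroup.mem_sup_right ?_
      have h3 : cjAI ρ σ ι α q t2 y ∈ stabI ρ σ ι α q t2 := (cjAI_mem_stabI t2).2 hy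
      have h4 : tQ E t2 = t0 E a b c := D4X.H369.tQ_t0 (two_ne_zero) (p := 1) (r := 0)
        (by rfl) (by norm_num) t2
      intro x
      have h5 : (cjAI ρ σ ι α q t2 y).1 * tQ E t2 = tQ E t2 * (cjAI ρ σ ι α q t2 y).1 := h3
      rw [h4] at h5
      exact congrArg (fun f : OctL E a b c ≃ₗ[E] OctL E a b c => f x) h5
  exact key h1

end move

end Vale.Agent.P011.D4W.H7
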