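import Vale.Agent.P011.D4W.H7.Fin
import Vale.Agent.P011N.D1.D4W.H7.Part
import Vale.Agent.P011N.D1.D4Y.Defs
import Vale.Agent.P011N.D1.D4Y.H691.Na
import Vale.Agent.P011N.D1.D4Z.H714.OuterI

/-!
Version for big subgroups of `P011.D4W.H7.Fin`.
-/

open Module NumberField Topology Filter

set_option linter.unusedSectionVars false

namespace Vale.Agent.P011.D4W.H7

open Vale.Agent.P011.Arith Vale.Agent.P011.MPQ Vale.Agent.P011.D4 Vale.Agent.P011.D4.Oct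
  Vale.Agent.P011.E6 Vale.Agent.P011.D4X Vale.Agent.P011.D4Y Vale.Agent.P011.D4Z

open scoped ComplexConjugate

section moves

variable {k L E : Type} [Field k] [NumberField k] [Field L] [NumberField L] [Field E]
  [Algebra k L] [Algebra k E] [Algebra L E]
  [IsScalarTower k L E] [NeZero (2 : E)] {ρ σ ι : E ≃ₐ[k] E} {α : E}
  {a b c : kˣ} {q : Lˣ}

/-- **The elements `z(x₀, x; 1)`** of any triple lie in the finite residual. -/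
theorem moves_memIB (hS : ShortAllB k L) (H : HyI ρ σ ι α a b c q) {b' c' : kˣ} {j l : Oct a b c}
    (h : Trip a b' c' gi j l) {x0 : Qt a b'} {x : Qt (up L a) (q * up L b')}
    (h0 : nrd x0 = 1) (h1 : nrd x = 1) :
    ∃ g ∈ RsIB ρ σ ι α a b c q, ∀ y : OctL E a b' c', g (tripO E h y) =
      tripO E h ⟨psiL α q x * y.fst * star (qmap ρ (qmap ρ (psiL α q x))),
        qup E x0 * y.snd * star (qmap ρ (psiL α q x))⟩ := by
  have h2 : NeZero (2 : k) := ⟨two_ne_zero⟩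
  obtain ⟨z, hz, hk, hzy⟩ := D4Y.exists_z (c := c') (hyTripI H h) x0 x 1 (by
    rw [h0, h1]
    simp)
  have hk1 : kapI z = 1 := kapI_eq (hk 1 (by rw [h1]; simp))
  have hkap : kapI (cjAI ρ σ ι α q h z) = 1 := by rw [kapI_cjAI, hk1]
  have hst : cjAI ρ σ ι α q h z ∈ stabI ρ σ ι α q h := (cjAI_mem_stabI h).2 hz
  have hN : IsNIB ρ σ ι α a b c q (cjAI ρ σ ι α q h z) := by
    refine stab_NB hS H h hst (κ := 1) ?_ (Subgroup.one_mem _)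
    rw [← hkap]
    exact isKapI_kapI _
  refine ⟨(cjAI ρ σ ι α q h z).1, mem_of_isNIB H _ (mem_GTI_of_kapI_one hkap) hN, fun y => ?_⟩
  have h3 : (cjAI ρ σ ι α q h z).1 (tripO E h y) = tripO E h (z.1 y) := by
    change cjE (tripO E h) z.1 (tripO E h y) = _
    exact cjE_apply _ _ _
  rw [h3, hzy]
  congr 1
  simp only [zFI, h1, map_one, mul_one, Units.val_one, div_one, one_smul]

/-- The short elements. -/
theorem move_xIB (hS : ShortAllB k L) (H : HyI ρ σ ι α a b c q) {b' c' : kˣ} {j l : Oct a b c}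
    (h : Trip a b' c' gi j l) {x : Qt (up L a) (q * up L b')} (h1 : nrd x = 1) :
    ∃ g ∈ RsIB ρ σ ι α a b c q, ∀ y : OctL E a b' c', g (tripO E h y) =
      tripO E h ⟨psiL α q x * y.fst * star (qmap ρ (qmap ρ (psiL α q x))),
        y.snd * star (qmap ρ (psiL α q x))⟩ := by
  obtain ⟨g, hg, h2⟩ := moves_memIB hS H h (x0 := 1) nrd_one h1
  refine ⟨g, hg, fun y => ?_⟩
  rw [h2, qup_one, one_mul]

/-- The long elements. -/
theorem move_0IB (hS : ShortAllB k L) (H : HyI ρ σ ι α a b c q) {b' c' : kˣ} {j l : Oct a b c}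
    (h : Trip a b' c' gi j l) {x0 : Qt a b'} (h0 : nrd x0 = 1) :
    ∃ g ∈ RsIB ρ σ ι α a b c q, ∀ y : OctL E a b' c', g (tripO E h y) =
      tripO E h ⟨y.fst, qup E x0 * y.snd⟩ := by
  obtain ⟨g, hg, h2⟩ := moves_memIB hS H h (x := 1) h0 nrd_one
  have e : (psiL α q (1 : Qt (up L a) (q * up L b')) : Qt (up E a) (up E b')) = 1 := by
    apply QuaternionAlgebra.ext <;> simp [psiL]
  refine ⟨g, hg, fun y => ?_⟩
  rw [h2, e, qmap_one, qmap_one, star_one, mul_one, one_mul, mul_one]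

end moves

section lim

variable {k L E : Type} [Field k] [NumberField k] [Field L] [NumberField L] [Field E]
  [NumberField E] [Algebra k L] [Algebra k E] [Algebra L E]
  [IsScalarTower k L E] [NeZero (2 : E)] {ρ σ ι : E ≃ₐ[k] E} {α : E}
  {a b c : kˣ} {q : Lˣ}

/-- **The limits of the short moves**: three quaternions of norm one in the real forms at `W`,
`W ρ`, `W ρ²`, for any trip. -/
theorem zlim_xIB (hS : ShortAllB k L) (H : HyI ρ σ ι α a b c q) [Algebra k ℂ]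
    (W W' W'' : E →ₐ[k] ℂ) (hW : (W : E →+* ℂ) ∈ Bd ρ σ q)
    (hW' : (W' : E →+* ℂ) ∈ Bd ρ σ q) (hW'' : (W'' : E →+* ℂ) ∈ Bd ρ σ q)
    (h' : W' = cmp W ρ) (h'' : W'' = cmp W' ρ)
    {b' c' : kˣ} {j l : Oct a b c} (h : Trip a b' c' gi j l) [NeZero (2 : ℂ)]
    {X1 X2 X3 : Qt (up ℂ a) (up ℂ b')} (n1 : nrd X1 = 1) (n2 : nrd X2 = 1) (n3 : nrd X3 = 1)
    (r1 : RQ a b' (W α) (W (algebraMap L E q)) X1)
    (r2 : RQ a b' (W α) (W' (algebraMap L E q)) X2)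
    (r3 : RQ a b' (W α) (W'' (algebraMap L E q)) X3) :
    ∃ X ∈ cl (Bd ρ σ q) (RsIB ρ σ ι α a b c q),
      (∀ y : OctL ℂ a b' c', act (X ⟨W, hW⟩) (tripO ℂ h y) =
        tripO ℂ h ⟨X1 * y.fst * star X3, y.snd * star X2⟩) ∧
      (∀ y : OctL ℂ a b' c', act (X ⟨W', hW'⟩) (tripO ℂ h y) =
        tripO ℂ h ⟨X2 * y.fst * star X1, y.snd * star X3⟩) ∧
      (∀ y : OctL ℂ a b' c', act (X ⟨W'', hW''⟩) (tripO ℂ h y) =
        tripO ℂ h ⟨X3 * y.fst * star X2, y.snd * star X1⟩) ∧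
      ∀ V : Bd ρ σ q, V.1.comp (algebraMap k E) ≠ algebraMap k ℂ → X V = 1 :=
  D4Z.H408.zlim_xI_of H W W' W'' hW hW' hW'' h' h'' h (fun _ hx => move_xIB hS H h hx)
    n1 n2 n3 r1 r2 r3

omit [NumberField E] in
/-- The limits of the long moves. -/
theorem zlim_0IB (hS : ShortAllB k L) (H : HyI ρ σ ι α a b c q) [Algebra k ℂ] (W : E →ₐ[k] ℂ)
    (hW : (W : E →+* ℂ) ∈ Bd ρ σ q)
    {b' c' : kˣ} {j l : Oct a b c} (h : Trip a b' c' gi j l) [NeZero (2 : ℂ)]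
    {X0 : Qt (up ℂ a) (up ℂ b')} (n0 : nrd X0 = 1) (r0 : D4Z.cjq X0 = X0) :
    ∃ X ∈ cl (Bd ρ σ q) (RsIB ρ σ ι α a b c q),
      (∀ y : OctL ℂ a b' c', act (X ⟨W, hW⟩) (tripO ℂ h y) = tripO ℂ h ⟨y.fst, X0 * y.snd⟩) ∧
      ∀ V : Bd ρ σ q, V.1.comp (algebraMap k E) ≠ algebraMap k ℂ → X V = 1 :=
  D4Z.H319.zlim_0_of W hW h (fun _ h0 => move_0IB hS H h h0) n0 r0

variable (H : HyI ρ σ ι α a b c q)

include H

theorem mem_of_oneIB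
    (hop : ∃ ε : ℝ, 0 < ε ∧ ∀ g : OctL E a b c ≃ₗ[E] OctL E a b c, g ∈ GTI ρ σ ι α a b c q →
      (∀ w ∈ Bd ρ σ q, ∀ x, on w (g x - x) ≤ ε * on w x) → g ∈ RsIB ρ σ ι α a b c q)
    {g : OctL E a b c ≃ₗ[E] OctL E a b c} (hg : g ∈ GTI ρ σ ι α a b c q)
    (h1 : (1 : Bd ρ σ q → Matrix (Fin 8) (Fin 8) ℂ) ∈
      D4Z.clg (Bd ρ σ q) (RsIB ρ σ ι α a b c q) g) : g ∈ RsIB ρ σ ι α a b c q :=
  D4Z.mem_of_one_of (BdI_finite H) (fun _ h => RsI_leB h) hop hg h1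

/-- The density argument. -/
theorem gt_topI_ofB
    (hop : ∃ ε : ℝ, 0 < ε ∧ ∀ g : OctL E a b c ≃ₗ[E] OctL E a b c, g ∈ GTI ρ σ ι α a b c q →
      (∀ w ∈ Bd ρ σ q, ∀ x, on w (g x - x) ≤ ε * on w x) → g ∈ RsIB ρ σ ι α a b c q)
    (hone : ∀ g ∈ GTI ρ σ ι α a b c q, ∀ (_ : Algebra k ℂ) (W : E →ₐ[k] ℂ)
      (hW : (W : E →+* ℂ) ∈ Bd ρ σ q) (hW' : (cmp W ρ : E →+* ℂ) ∈ Bd ρ σ q)
      (hW'' : (cmp (cmp W ρ) ρ : E →+* ℂ) ∈ Bd ρ σ q),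
      (W (algebraMap L E q)).re < 0 → 0 < (W (ρ (algebraMap L E q))).re →
      ∀ Y ∈ D4Z.clg (Bd ρ σ q) (RsIB ρ σ ι α a b c q) g,
        ∃ Y' ∈ D4Z.clg (Bd ρ σ q) (RsIB ρ σ ι α a b c q) g, Y' ⟨W, hW⟩ = 1 ∧
          Y' ⟨cmp W ρ, hW'⟩ = 1 ∧ Y' ⟨cmp (cmp W ρ) ρ, hW''⟩ = 1 ∧
          ∀ V : Bd ρ σ q, V.1.comp (algebraMap k E) ≠ algebraMap k ℂ → Y' V = Y V) :
    GTI ρ σ ι α a b c q ≤ RsIB ρ σ ι α a b c q := fun g hg =>
  mem_of_oneIB H hop hg (D4Z.H68.outerI H (fun _ hz => (RsI_leB hz).2.2) hg.2.2 (hone g hg)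
    D4Z.self_mem_clg)

/-- **The moves fill up**: `GTI ≤ RsI`. -/
theorem gt_topIB (hX : ∀ τ : k →+* ℝ, τ a < 0 → τ b < 0 ∧ τ c < 0) (hS : ShortAllB k L)
    (hop : ∃ ε : ℝ, 0 < ε ∧ ∀ g : OctL E a b c ≃ₗ[E] OctL E a b c, g ∈ GTI ρ σ ι α a b c q →
      (∀ w ∈ Bd ρ σ q, ∀ x, on w (g x - x) ≤ ε * on w x) → g ∈ RsIB ρ σ ι α a b c q) :
    GTI ρ σ ι α a b c q ≤ RsIB ρ σ ι α a b c q := by
  refine gt_topI_ofB H hop ?_
  intro g hg _ W hW hW' hW'' h0 h1 Y hY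
  exact D4Z.H342.one_placeI_of H hX W hW hW' hW'' h0 h1
    (fun U hU Y hY x y => D4Z.H714.clg_bilIB H U hU hg hY x y)
    (fun U hU Y hY x => D4Z.H714.clg_JIB U hU hg hY x)
    (fun Y hY x y => D4Z.H714.clg_triIB W _ _ hW hW' hW'' rfl rfl hg hY x y)
    (fun W' W'' hW' hW'' h' h'' _ _ _ _ h _ _ _ n1 n2 n3 r1 r2 r3 =>
      zlim_xIB hS H W W' W'' hW hW' hW'' h' h'' h n1 n2 n3 r1 r2 r3)
    (fun h _ n0 r0 => zlim_0IB hS H W hW h n0 r0)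
    (fun X Y Z ht hN hJ _ _ hu hv hu1 hv1 hX =>
      D4Z.H63.end_reflI H W _ _ hW.1 rfl rfl ht hN hJ hu hv hu1 hv1 hX)
    hY

end lim

end Vale.Agent.P011.D4W.H7
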