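import Vale.Agent.P011.D4W.H7.ShortAll
import Vale.Agent.P011N.D1.D4W.H359.Short
import Vale.Agent.P011N.D1.D4W.H7.Part
import Vale.Agent.P011N.D1.D4Y.H691.Na

/-!
Version for big subgroups of `P011.D4W.H7.ShortAll`.
-/

open Module NumberField

namespace Vale.Agent.P011.D4W.H7

open Vale.Agent.P011.MPQ Vale.Agent.P011.D4

/-- The short elements. -/
theorem shortAllB (k L : Type) [Field k] [NumberField k] [Field L] [NumberField L] [Algebra k L] :
    ShortAllB k L :=
  fun _ _ _ _ _ _ _ _ _ _ _ _ _ _ H _ _ hg => H359.short_memB H hg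

end Vale.Agent.P011.D4W.H7
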